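import Vale.Agent.P181.RH.Defs

set_option autoImplicit false

/-!
# P181, RHU: RH uniform in `δ`: the literals

One theorem `NearA` for every partition: `C b log (2 + log a) ≤ (b - a) log (D_2 / a)`.
-/

namespace Vale.Agent.P181.RH

open Finset Vale.Agent.P181 Vale.Agent.P181.H280 Vale.Agent.P181.H463

/-- **[PARU]** `ParRH` with `X₀` explicit. -/
def ParRHU : Prop := ∀ (δ : ℝ) (a b X m : ℕ), 0 < δ → δ ≤ 1 → 100 ≤ X → 100 / δ ≤ X →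
  X ^ 100 ≤ a → (1 + δ) * a ≤ b → b ≤ X * a → 3 ≤ m → m ≤ X →
  ∃ u D1 D2 R2 R3 f₀ f₂ F₀ F₂ T s : ℕ, NumD u m D1 D2 R2 R3 a f₀ f₂ F₀ F₂ T s ∧
    u + ∑ r : Fin m, ff m f₀ f₂ r = b ∧ (1 + δ / 2) * a + 2 ≤ u ∧
    2 * X * (u * D1 + R2 + (u * D2 + R3)) ≤ a ^ 2 ∧ u * D2 + R3 ≤ X ^ 14 * a

/-- **[NUMU]** `NumRH` with `K` and `X₀` explicit. -/
def NumRHU : Prop := ∀ (δ : ℝ) (K a b X m u y G : ℕ), 0 < δ → δ ≤ 1 → 68 / δ + 2 ≤ K → 2 ≤ X →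
  X ^ 100 ≤ a → (1 + δ / 2) * a + 2 ≤ u → u ≤ b → b ≤ 2 * u → b ≤ X * a → 3 ≤ m → m ≤ X →
  X ^ K * a ≤ 2 * y → a ^ 2 ≤ 2 * X * (G + 1) →
  (((a + b).choose a * 2 ^ ((m - 2) * a) * ((2 * a * b) ^ (u - 1) *
    (u.factorial * (u - 2).factorial)) : ℕ) : ℝ) ≤
    (G : ℝ) ^ (2 * (u - 2)) * (1 + (y : ℝ) / (u - 2 : ℕ)) ^ ((m - 2) * (u - 2 - a))

/-- **[COREU]** `CoreRH` with `K` and `X₀` explicit (from `ParRHU`, `LowRH`, `NumRHU`,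
`RG.HalfRG`). -/
def CoreRHU : Prop := ∀ (δ : ℝ) (K a b X m n : ℕ) (lam : Fin (n + 2) → ℕ), 0 < δ → δ ≤ 1 →
  68 / δ + 102 ≤ K → 100 ≤ X → 100 / δ ≤ X → X ^ K ≤ a → Antitone lam →
  ∑ i, lam i = a * b → n + 2 ≤ a → (1 + δ) * a ≤ b → b ≤ X * a → 3 ≤ m → m ≤ X → m ≤ n + 2 →
  (∀ i : Fin (n + 2), 2 ≤ (i : ℕ) → a ^ 2 + X * lam i ≤ X * lam 1) →
  (∀ i : Fin (n + 2), (i : ℕ) < m → X ^ K * a ≤ lam i ∧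
    ∀ j : Fin (n + 2), m ≤ (j : ℕ) → X ^ K * a + lam j ≤ lam i) →
  plethMult a b (n + 2) lam ≤ plethMult b a (n + 2) lam

/-- **[NEARA]** from `CoreRHU`, `RV.NearV`, `FatLog`, `UniAll`, `PolyS`. -/
def NearA : Prop := ∃ C : ℝ, 0 < C ∧ ∀ a b : ℕ, a ≤ b → ∀ (n : ℕ) (lam : Fin n → ℕ),
  C * b * Real.log (2 + Real.log a) ≤ ((b : ℝ) - a) * Real.log ((PL.dn lam 2 : ℝ) / a) →
  plethMult a b n lam ≤ plethMult b a n lam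

end Vale.Agent.P181.RH
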