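import Vale.Agent.P181.RH.MatDefs
import Vale.Agent.P181.PL.Defs

set_option autoImplicit false

/-!
# P181, RH: `b ≥ (1 + δ) a` and at least `a * polylog` cells below row two

As RG, but with marker columns of length `2` (most of them) and of length `m` (at most
`a * polylog` of them). Letters: `u` free letters, `f r` letters of the class `r < m`.
-/

namespace Vale.Agent.P181.RH

open Finset Vale.Agent.P181 Vale.Agent.P181.H280 Vale.Agent.P181.H463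
open Vale.Agent.P181.RG (Lt Own Same Thin)

/-- The lengths of the form columns: `D1` of length `2`, then `D2` of length `m`. -/
def lf (D1 D2 m : ℕ) : Fin (D1 + D2) → ℕ := fun s => if (s : ℕ) < D1 then 2 else m

/-- The lengths of the other columns: `R2` of length `2`, then `R3` of length `m`. -/
def lr (R2 R3 m : ℕ) : Fin (R2 + R3) → ℕ := fun c => if (c : ℕ) < R2 then 2 else m

/-- The row of the free letter in the form column `s` of exponent `l`: `l / (D2 + 1)` times the row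
one in the columns of length `2`, `l % (D2 + 1)` times the row two in those of length `m`
(`wt 1 = D2 + 1`, `wt 2 = 1`). -/
def pos (D1 D2 l : ℕ) (s : Fin (D1 + D2)) : ℕ :=
  if (s : ℕ) < D1 then (if (s : ℕ) < l / (D2 + 1) then 1 else 0)
  else if (s : ℕ) - D1 < l % (D2 + 1) then 2 else 0

/-- **[PEAK]** only the classes are independent sets of their sizes, for any strictly decreasing
sizes. -/
def PeakRH : Prop :=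
  ∀ (u m T g : ℕ) (f : Fin m → ℕ) (grp : Fin u → Fin g) (N : Lt u m f → Lt u m f → Prop),
    g + 1 ≤ T → (∀ r, T ≤ f r) → StrictAnti f → (∀ x y, N x y → N y x) →
    (∀ x y : Σ r : Fin m, Fin (f r), x.1 ≠ y.1 → N (Sum.inr x) (Sum.inr y)) →
    (∀ i j : Fin u, i ≠ j → grp i = grp j → N (Sum.inl i) (Sum.inl j)) →
    (∀ (i : Fin u) (r : Fin m), ∃ A : Finset (Fin (f r)), A.card = T ∧
      ∀ j ∈ A, N (Sum.inl i) (Sum.inr ⟨r, j⟩)) →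
    ∀ σ : Equiv.Perm (Lt u m f), (∀ x y, N x y → ¬ Same (σ x) (σ y)) →
      ∀ x : Σ r : Fin m, Fin (f r), Own x.1 (σ (Sum.inr x))

/-- The sizes of the classes. -/
def ff (m f₀ f₂ : ℕ) : Fin m → ℕ := fun r => if (r : ℕ) < 2 then f₀ - r else f₂ - (r - 2)

/-- The numbers of a design (`L2 = u D1 + R2`, `L3 = u D2 + R3` columns; the row `0` carries `F₀`
free letters, the row `2` carries `F₂`). -/
def NumD (u m D1 D2 R2 R3 k f₀ f₂ F₀ F₂ T s : ℕ) : Prop :=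
  3 ≤ m ∧ 1 ≤ u ∧ 1 ≤ s ∧ u ≤ (D1 + 1) * (D2 + 1) ∧
    u * D1 + R2 + (u * D2 + R3) = f₀ * k + F₀ ∧ u * D2 + R3 = f₂ * k + F₂ ∧
    u * (D1 + D2 + s + 2 * T) ≤ F₀ ∧ u * D2 ≤ F₂ ∧
    u * (s + T) + f₀ ^ 2 + 2 * F₀ + k ≤ R2 ∧
    u * T + f₀ * f₂ + m * f₂ ^ 2 + m * F₂ + k * m ^ 2 ≤ R3 ∧
    4 * (u * T) ≤ (f₂ - m) * k ∧ 8 * (f₀ + m * f₂) + 4 ≤ k ∧
    u / s + 2 ≤ T ∧ T + m ≤ f₂ ∧ 2 * m ≤ f₂ ∧ f₂ + 2 ≤ f₀

/-- **[DES]** the design exists. -/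
def DesRH : Prop :=
  ∀ (u m D1 D2 R2 R3 k f₀ f₂ F₀ F₂ T s : ℕ) (e : Fin u → ℕ),
    NumD u m D1 D2 R2 R3 k f₀ f₂ F₀ F₂ T s →
    2 * ∑ i, e i = 4 * F₀ + 2 * k + 2 * ((m - 2) * F₂) + k * ((m - 2) * (m - 3)) →
    (∀ i, D1 + D2 + s + 2 * T ≤ e i) →
    LDes u m (D1 + D2) (R2 + R3) k (ff m f₀ f₂) (lf D1 D2 m) (lr R2 R3 m) (pos D1 D2) e

/-- **[PAR]** the parameters: `D2 = X ^ 8`, `D1 = b / X ^ 8`, `s = D1 + 1`, `T = X ^ 8 + 2`,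
`F₀ = b (D1 + D2 + s + 2 T)`, `f₀ = 4 F₀ / a + 3`, `f₂ = X ^ 12`, `F₂ = u D2`. -/
def ParRH : Prop := ∀ δ : ℝ, 0 < δ → δ ≤ 1 → ∃ X₀ : ℕ, ∀ a b X m : ℕ, X₀ ≤ X → X ^ 100 ≤ a →
  (1 + δ) * a ≤ b → b ≤ X * a → 3 ≤ m → m ≤ X →
  ∃ u D1 D2 R2 R3 f₀ f₂ F₀ F₂ T s : ℕ, NumD u m D1 D2 R2 R3 a f₀ f₂ F₀ F₂ T s ∧
    u + ∑ r : Fin m, ff m f₀ f₂ r = b ∧ (1 + δ / 2) * a + 2 ≤ u ∧
    2 * X * (u * D1 + R2 + (u * D2 + R3)) ≤ a ^ 2 ∧ u * D2 + R3 ≤ X ^ 14 * a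

/-- **[LOW]** the lower bound after peeling two rows (from `MatLG`, [DES] and helper112's [P1]);
`n + 2` rows, `G` bounds the gaps after the first two rows. -/
def LowRH : Prop := ∀ (n a b u m D1 D2 R2 R3 f₀ f₂ F₀ F₂ T s G : ℕ) (lam η : Fin (n + 2) → ℕ),
  NumD u m D1 D2 R2 R3 a f₀ f₂ F₀ F₂ T s → u + ∑ r : Fin m, ff m f₀ f₂ r = b → m ≤ n + 2 →
  n + 2 ≤ u → 3 ≤ u → ∑ i, lam i = a * b → Antitone η →
  (∀ i : Fin (n + 2), (if (i : ℕ) < 2 then u * D1 + R2 else 0) +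
    (if (i : ℕ) < m then u * D2 + R3 else 0) + η i = lam i) →
  (∀ i : Fin (n + 2), 2 ≤ (i : ℕ) → G + η i ≤ η 1) → G ≤ η 1 →
  G ^ (2 * (u - 2)) * gt n (u - 2) (fun i => η i.succ.succ) ≤
    (2 * a * b) ^ (u - 1) * (u.factorial * (u - 2).factorial) * plethMult b a (n + 2) lam

/-- **[NUM]** the final inequality; `y` is the length of the row `m` after the cut. -/
def NumRH : Prop := ∀ δ : ℝ, 0 < δ → δ ≤ 1 → ∃ K X₀ : ℕ, ∀ a b X m u y G : ℕ, X₀ ≤ X →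
  X ^ 100 ≤ a → (1 + δ / 2) * a + 2 ≤ u → u ≤ b → b ≤ 2 * u → b ≤ X * a → 3 ≤ m → m ≤ X →
  X ^ K * a ≤ 2 * y → a ^ 2 ≤ 2 * X * (G + 1) →
  (((a + b).choose a * 2 ^ ((m - 2) * a) * ((2 * a * b) ^ (u - 1) *
    (u.factorial * (u - 2).factorial)) : ℕ) : ℝ) ≤
    (G : ℝ) ^ (2 * (u - 2)) * (1 + (y : ℝ) / (u - 2 : ℕ)) ^ ((m - 2) * (u - 2 - a))

/-- **[CORE]** from [PAR], [LOW], [NUM], `TL.UpB`, `RG.HalfRG`, `gt_growth_rows`. -/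
def CoreRH : Prop := ∀ δ : ℝ, 0 < δ → δ ≤ 1 → ∃ K X₀ : ℕ,
  ∀ (a b X m n : ℕ) (lam : Fin (n + 2) → ℕ), X₀ ≤ X → X ^ K ≤ a → Antitone lam →
  ∑ i, lam i = a * b → n + 2 ≤ a → (1 + δ) * a ≤ b → b ≤ X * a → 3 ≤ m → m ≤ X → m ≤ n + 2 →
  (∀ i : Fin (n + 2), 2 ≤ (i : ℕ) → a ^ 2 + X * lam i ≤ X * lam 1) →
  (∀ i : Fin (n + 2), (i : ℕ) < m → X ^ K * a ≤ lam i ∧
    ∀ j : Fin (n + 2), m ≤ (j : ℕ) → X ^ K * a + lam j ≤ lam i) →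
  plethMult a b (n + 2) lam ≤ plethMult b a (n + 2) lam

/-- **[CORE-A]** the same with RG's design (`RG.MatRG`, `RG.DesRG`, columns of length `m` only):
the gap after row `m ≥ 3` is at least `a ^ 2 / X`. -/
def CoreRA : Prop := ∀ δ : ℝ, 0 < δ → δ ≤ 1 → ∃ K X₀ : ℕ,
  ∀ (a b X m n : ℕ) (lam : Fin (n + 2) → ℕ), X₀ ≤ X → X ^ K ≤ a → Antitone lam →
  ∑ i, lam i = a * b → n + 2 ≤ a → (1 + δ) * a ≤ b → b ≤ X * a → 3 ≤ m → m ≤ X → m ≤ n + 2 →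
  (∀ i : Fin (n + 2), (i : ℕ) < m → a ^ 2 ≤ X * lam i ∧
    ∀ j : Fin (n + 2), m ≤ (j : ℕ) → a ^ 2 + X * lam j ≤ X * lam i) →
  plethMult a b (n + 2) lam ≤ plethMult b a (n + 2) lam

/-- **[FIN]** from [CORE], [CORE-A], `FatLog`, `UniY` (or `DiagX`), `PolyS`. -/
def FinRH : Prop := ∀ δ : ℝ, 0 < δ → ∃ (C : ℝ) (c : ℕ), 0 < C ∧ ∀ a b : ℕ, (1 + δ) * a ≤ b →
  ∀ (n : ℕ) (lam : Fin n → ℕ), C * (1 + Real.log a) ^ c * a ≤ (PL.dn lam 2 : ℝ) →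
  plethMult a b n lam ≤ plethMult b a n lam

end Vale.Agent.P181.RH
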