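import Vale.Agent.P181.RG.Defs

set_option autoImplicit false

/-!
# P181, RH [MAT]: the orbit inequality of `RG` with columns of any lengths between `2` and `m`

Letters and classes as in `RG.Defs`. Form columns `(i, s)`, `i` a free letter, `s : Fin S`, of
length `lf s`: the free letter is in the row `pos (τ i) s`. Other columns `c : Fin R`, of length
`lr c`. Only the rows `r < length` of a column count.
-/

namespace Vale.Agent.P181.RH

open Finset Vale.Agent.P181 Vale.Agent.P181.H280 Vale.Agent.P181.H463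
open Vale.Agent.P181.RG (Lt Own Same Thin)

/-- the length of a column -/
def ln {u S R : ℕ} (lf : Fin S → ℕ) (lr : Fin R → ℕ) : (Fin u × Fin S) ⊕ Fin R → ℕ :=
  Sum.elim (fun p => lf p.2) lr

/-- **The design** with lengths: for every permutation `τ` of the free letters. -/
def LDes (u m S R k : ℕ) (f : Fin m → ℕ) (lf : Fin S → ℕ) (lr : Fin R → ℕ)
    (pos : ℕ → Fin S → ℕ) (e : Fin u → ℕ) : Prop :=
  ∃ (fr : Fin R → Fin m → Option (Fin u))
    (K : Equiv.Perm (Fin u) → (Fin u × Fin S) ⊕ Fin R → Fin m → Lt u m f),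
    (∀ c, Thin (fr c)) ∧
    (∀ τ i (s : Fin S) (r : Fin m), (r : ℕ) < lf s → if (r : ℕ) = pos (τ i) s
      then K τ (Sum.inl (i, s)) r = Sum.inl i else Own r (K τ (Sum.inl (i, s)) r)) ∧
    (∀ τ c (r : Fin m), (r : ℕ) < lr c → (∀ i, fr c r = some i → K τ (Sum.inr c) r = Sum.inl i) ∧
      (fr c r = none → Own r (K τ (Sum.inr c) r))) ∧
    (∀ τ i, ∑ c, (univ.filter fun r : Fin m =>
      (r : ℕ) < ln lf lr c ∧ K τ c r = Sum.inl i).card = e i) ∧
    (∀ τ x, ∑ c, (univ.filter fun r : Fin m =>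
      (r : ℕ) < ln lf lr c ∧ K τ c r = Sum.inr x).card = k) ∧
    ∀ τ (σ : Equiv.Perm (Lt u m f)),
      (∀ c (r r' : Fin m), (r : ℕ) < ln lf lr c → (r' : ℕ) < ln lf lr c → r ≠ r' →
        ¬ Same (σ (K τ c r)) (σ (K τ c r'))) →
      ∀ x : Σ r : Fin m, Fin (f r), Own x.1 (σ (Sum.inr x))

/-- **[MAT]** the orbit inequality of the design. The special point has `y_v (row j) = t ^ (wt j * v)`. -/
def MatLG : Prop :=
  ∀ (n k b u m S R : ℕ) (f : Fin m → ℕ) (lf : Fin S → ℕ) (lr : Fin R → ℕ) (pos : ℕ → Fin S → ℕ)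
    (wt : ℕ → ℕ) (lam η : Fin n → ℕ) (d : Fin u → ℕ),
    2 ≤ m → m ≤ n → (∀ s, 2 ≤ lf s ∧ lf s ≤ m) → (∀ c, 2 ≤ lr c ∧ lr c ≤ m) →
    (∀ l, l < u → ∀ s, pos l s < lf s) → wt 0 = 0 → 1 ≤ wt 1 →
    (∀ l, l < u → ∑ s, wt (pos l s) = l) →
    u + ∑ r, f r = b → Antitone η →
    (∀ i j, d i ≤ d j + 1) → ∑ i, d i = ∑ i, η i → (∀ i, d i ≤ k) →
    LDes u m S R k f lf lr pos (fun i => k - d i) →
    (∀ i : Fin n, u * (univ.filter fun s => (i : ℕ) < lf s).card +
      (univ.filter fun c => (i : ℕ) < lr c).card + η i = lam i) →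
    gt n u η ≤ ((∑ i, η i) + u - 1).choose (u - 1) * (u.factorial * plethMult b k n lam)

end Vale.Agent.P181.RH
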